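import Vale.Agent.Lib.P012_helper12.LLGreedy

namespace Vale.Agent.Lib.P012b

open Finset

/-! ## Module F : Assembly -/

/-- sum of `d / M` over divisors `d` of `M`, rewritten as a sum of unit fractions. -/
theorem asm_sum_image_div (M k : ℕ) (hM : 0 < M) (hk : 0 < k) (D : Finset ℕ)
    (hD : ∀ d ∈ D, d ∣ M) :
    ∑ n ∈ D.image (fun d => k * (M / d)), (1 / n : ℚ) = (∑ d ∈ D, d : ℕ) / ((k : ℚ) * M) := by
  have hinj : Set.InjOn (fun d => k * (M / d)) (D : Set ℕ) := by
    intro d hd e he hde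
    have h1 : M / d = M / e := Nat.eq_of_mul_eq_mul_left hk hde
    obtain ⟨x, hx⟩ := hD d hd
    obtain ⟨y, hy⟩ := hD e he
    have hd0 : 0 < d := Nat.pos_of_dvd_of_pos (hD d hd) hM
    have he0 : 0 < e := Nat.pos_of_dvd_of_pos (hD e he) hM
    have h2 : M / d = x := by rw [hx]; exact Nat.mul_div_cancel_left x hd0
    have h3 : M / e = y := by rw [hy]; exact Nat.mul_div_cancel_left y he0
    have hxy : x = y := by rw [← h2, ← h3, h1]
    have hx0 : 0 < x := by
      rcases Nat.eq_zero_or_pos x with h | h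
      · subst h; simp at hx; omega
      · exact h
    have : d * x = e * x := by rw [← hx, hxy, ← hy]
    exact Nat.eq_of_mul_eq_mul_right hx0 this
  rw [Finset.sum_image hinj]
  push_cast
  rw [Finset.sum_div]
  refine Finset.sum_congr rfl ?_
  intro d hd
  obtain ⟨x, hx⟩ := hD d hd
  have hd0 : 0 < d := Nat.pos_of_dvd_of_pos (hD d hd) hM
  have h2 : M / d = x := by rw [hx]; exact Nat.mul_div_cancel_left x hd0
  have hx0 : 0 < x := by
    rcases Nat.eq_zero_or_pos x with h | h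
    · subst h; simp at hx; omega
    · exact h
  rw [h2, hx]
  have hdq : (d : ℚ) ≠ 0 := by exact_mod_cast hd0.ne'
  have hxq : (x : ℚ) ≠ 0 := by exact_mod_cast hx0.ne'
  have hkq : (k : ℚ) ≠ 0 := by exact_mod_cast hk.ne'
  push_cast
  field_simp

/-- `Lam * ∑ 1/e` is the natural number `∑ Lam / e`. -/
theorem asm_sum_div (G : Finset ℕ) (hG : ∀ e ∈ G, 0 < e) :
    ((∑ e ∈ G, (∏ e' ∈ G, e') / e : ℕ) : ℚ) = ((∏ e' ∈ G, e' : ℕ) : ℚ) * ∑ e ∈ G, (1 / e : ℚ) := by
  rw [Nat.cast_sum, Finset.mul_sum]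
  apply Finset.sum_congr rfl
  intro e he
  have hdvd : e ∣ ∏ e' ∈ G, e' := Finset.dvd_prod_of_mem _ he
  have he0 : (e : ℚ) ≠ 0 := by exact_mod_cast (hG e he).ne'
  rw [Nat.cast_div hdvd he0]
  ring

theorem assembly (H Z t κ : ℕ) (hZ2 : 2 ≤ Z) (hZ : Z ≤ 2 ^ 2 ^ κ)
    (hRep : ∀ m < H, Rep (H * Z) t m)
    (a b : ℕ) (ha : 1 ≤ a) (hab : a < b) (hb : b * Z ^ 2 ≤ H) :
    ∃ S : Finset ℕ, (∀ n ∈ S, 2 ≤ n) ∧ S.card ≤ κ + 1 + 2 * t ∧
      ∑ n ∈ S, (1 / n : ℚ) = a / b := by
  have hb0 : 0 < b := by omega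
  have hbq : (0 : ℚ) < b := by exact_mod_cast hb0
  have hZ0 : 0 < Z := by omega
  have hZq : (0 : ℚ) < Z := by exact_mod_cast hZ0
  have hx0 : (0 : ℚ) ≤ (a : ℚ) / b := by positivity
  have hx1 : (a : ℚ) / b < 1 := by
    rw [div_lt_one hbq]; exact_mod_cast hab
  obtain ⟨G, hG1, hG2, hG3, hG4, hG5⟩ := greedy κ Z hZ2 hZ ((a : ℚ) / b) hx0 hx1
  set Lam := ∏ e ∈ G, e with hLam
  have hLam0 : 0 < Lam := Finset.prod_pos (fun e he => by have := (hG1 e he).1; omega)
  have hLamq : (0 : ℚ) < Lam := by exact_mod_cast hLam0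
  set T := ∑ e ∈ G, Lam / e with hT
  have hTq : (T : ℚ) = (Lam : ℚ) * ∑ e ∈ G, (1 / e : ℚ) :=
    asm_sum_div G (fun e he => by have := (hG1 e he).1; omega)
  set σ := ∑ e ∈ G, (1 / e : ℚ) with hσ
  set B0 := b * Lam with hB0
  have hB00 : 0 < B0 := Nat.mul_pos hb0 hLam0
  have hB0q : (0 : ℚ) < B0 := by exact_mod_cast hB00
  -- numerator
  have hle : b * T ≤ a * Lam := by
    have : ((b * T : ℕ) : ℚ) ≤ ((a * Lam : ℕ) : ℚ) := by
      push_cast
      rw [hTq]
      have h1 : (a : ℚ) / b - σ = ((a : ℚ) * Lam - b * (Lam * σ)) / (b * Lam) := by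
        field_simp
      rw [h1] at hG4
      have h2 : 0 ≤ (a : ℚ) * Lam - b * (Lam * σ) := by
        by_contra hneg
        have hneg' : (a : ℚ) * Lam - b * (Lam * σ) < 0 := not_le.mp hneg
        have : ((a : ℚ) * Lam - b * (Lam * σ)) / (b * Lam) < 0 :=
          div_neg_of_neg_of_pos hneg' (by positivity)
        linarith
      linarith
    exact_mod_cast this
  obtain ⟨a', ha'⟩ : ∃ a' : ℕ, a' + b * T = a * Lam := ⟨a * Lam - b * T, by omega⟩
  have ha'q : (a' : ℚ) = (a : ℚ) * Lam - b * (Lam * σ) := by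
    have : ((a' + b * T : ℕ) : ℚ) = ((a * Lam : ℕ) : ℚ) := by rw [ha']
    push_cast at this
    rw [hTq] at this
    linarith
  have hx' : (a : ℚ) / b - σ = (a' : ℚ) / B0 := by
    rw [ha'q, hB0]
    push_cast
    field_simp
  -- size facts
  have hB0H : B0 ≤ H := by
    calc B0 = b * Lam := rfl
      _ ≤ b * Z ^ 2 := Nat.mul_le_mul_left _ hG3
      _ ≤ H := hb
  have hH0 : 0 < H := lt_of_lt_of_le hB00 hB0H
  set N := H * Z with hN
  have hN0 : 0 < N := Nat.mul_pos hH0 hZ0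
  have haZ : a' * Z < B0 := by
    rw [hx'] at hG5
    rw [div_lt_div_iff₀ hB0q hZq] at hG5
    have : ((a' * Z : ℕ) : ℚ) < ((B0 : ℕ) : ℚ) := by
      push_cast; linarith
    exact_mod_cast this
  set q := a' * N / B0 with hq
  set r := a' * N % B0 with hr
  have hqr : B0 * q + r = a' * N := Nat.div_add_mod _ _
  have hrB : r < B0 := Nat.mod_lt _ hB00
  have hrH : r < H := lt_of_lt_of_le hrB hB0H
  have hqH : q < H := by
    have h1 : B0 * q ≤ a' * N := by omega
    have h2 : a' * N < B0 * H := by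
      calc a' * N = (a' * Z) * H := by rw [hN]; ring
        _ < B0 * H := Nat.mul_lt_mul_of_pos_right haZ hH0
    exact Nat.lt_of_mul_lt_mul_left (lt_of_le_of_lt h1 h2)
  obtain ⟨D1, hD1a, hD1b, hD1c⟩ := hRep q hqH
  obtain ⟨D2, hD2a, hD2b, hD2c⟩ := hRep r hrH
  have hD1d : ∀ d ∈ D1, d ∣ N := fun d hd => Nat.dvd_of_mem_divisors (hD1a hd)
  have hD2d : ∀ d ∈ D2, d ∣ N := fun d hd => Nat.dvd_of_mem_divisors (hD2a hd)
  have hs1 := asm_sum_image_div N 1 hN0 one_pos D1 hD1d
  have hs2 := asm_sum_image_div N B0 hN0 hB00 D2 hD2d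
  rw [hD1c] at hs1
  rw [hD2c] at hs2
  set S1 := D1.image (fun d => 1 * (N / d)) with hS1
  set S2 := D2.image (fun d => B0 * (N / d)) with hS2
  -- ranges
  have hR1 : ∀ n ∈ S1, Z < n ∧ n ≤ N := by
    intro n hn
    obtain ⟨d, hd, rfl⟩ := Finset.mem_image.mp hn
    have hdq : d ≤ q := by
      rw [← hD1c]; exact Finset.single_le_sum (f := fun d : ℕ => d) (fun _ _ => Nat.zero_le _) hd
    have hdH : d < H := lt_of_le_of_lt hdq hqH
    have hmul : d * (N / d) = N := Nat.mul_div_cancel' (hD1d d hd)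
    rw [one_mul]
    refine ⟨?_, Nat.div_le_self _ _⟩
    by_contra hcon
    have hcon' : N / d ≤ Z := not_lt.mp hcon
    have hd0 : 0 < d := Nat.pos_of_dvd_of_pos (hD1d d hd) hN0
    have h3 : d * (N / d) ≤ d * Z := Nat.mul_le_mul_left _ hcon'
    have h4 : d * Z < H * Z := Nat.mul_lt_mul_of_pos_right hdH hZ0
    omega
  have hR2 : ∀ n ∈ S2, N < n := by
    intro n hn
    obtain ⟨d, hd, rfl⟩ := Finset.mem_image.mp hn
    have hdr : d ≤ r := by
      rw [← hD2c]; exact Finset.single_le_sum (f := fun d : ℕ => d) (fun _ _ => Nat.zero_le _) hd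
    have hdB : d < B0 := lt_of_le_of_lt hdr hrB
    have hmul : d * (N / d) = N := Nat.mul_div_cancel' (hD2d d hd)
    have hpos : 0 < N / d := by
      rcases Nat.eq_zero_or_pos (N / d) with h | h
      · rw [h] at hmul; omega
      · exact h
    calc N = d * (N / d) := hmul.symm
      _ < B0 * (N / d) := Nat.mul_lt_mul_of_pos_right hdB hpos
  have hdis1 : Disjoint G S1 := by
    rw [Finset.disjoint_left]
    intro n hn1 hn2
    have := (hG1 n hn1).2
    have := (hR1 n hn2).1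
    omega
  have hdis2 : Disjoint (G ∪ S1) S2 := by
    rw [Finset.disjoint_left]
    intro n hn1 hn2
    have h2 := hR2 n hn2
    rcases Finset.mem_union.mp hn1 with h | h
    · have := (hG1 n h).2
      have hZN : Z ≤ N := by
        rw [hN]; exact Nat.le_mul_of_pos_left _ hH0
      omega
    · have := (hR1 n h).2
      omega
  refine ⟨G ∪ S1 ∪ S2, ?_, ?_, ?_⟩
  · intro n hn
    rcases Finset.mem_union.mp hn with h | h
    · rcases Finset.mem_union.mp h with h | h
      · exact (hG1 n h).1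
      · have := (hR1 n h).1; omega
    · have := hR2 n h
      have hZN : Z ≤ N := by
        rw [hN]; exact Nat.le_mul_of_pos_left _ hH0
      omega
  · have c1 : (G ∪ S1 ∪ S2).card ≤ G.card + S1.card + S2.card :=
      (Finset.card_union_le _ _).trans (Nat.add_le_add_right (Finset.card_union_le _ _) _)
    have c2 : S1.card ≤ D1.card := Finset.card_image_le
    have c3 : S2.card ≤ D2.card := Finset.card_image_le
    omega
  · rw [Finset.sum_union hdis2, Finset.sum_union hdis1, hs1, hs2]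
    have hNq : (0 : ℚ) < N := by exact_mod_cast hN0
    have hqrq : (B0 : ℚ) * q + r = a' * N := by exact_mod_cast hqr
    have h5 : (q : ℚ) / ((1 : ℕ) * N) + (r : ℚ) / (B0 * N) = (a' : ℚ) / B0 := by
      push_cast
      rw [one_mul, div_add_div _ _ hNq.ne' (by positivity), div_eq_div_iff (by positivity) hB0q.ne']
      have : (q : ℚ) * (B0 * N) + N * r = N * (B0 * q + r) := by ring
      rw [this, hqrq]
      ring
    have h6 : σ + (a' : ℚ) / B0 = a / b := by rw [← hx']; ring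
    rw [← h6, ← h5]
    ring

end Vale.Agent.Lib.P012b
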