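import Vale.Agent.Lib.P012_helper13.LLDefs

namespace Vale.Agent.Lib.P012b

open Finset

/-! ## Module G : Greedy (Sylvester) -/

theorem greedy_aux : ∀ (κ c y : ℕ), 2 ≤ c → y ≤ c ^ 2 ^ κ → c ≤ y ^ 2 → 1 ≤ y → ∀ x : ℚ, 0 ≤ x →
    x < 1 / c →
    ∃ G : Finset ℕ, (∀ e ∈ G, c < e ∧ e ≤ y) ∧ G.card ≤ κ ∧ c * ∏ e ∈ G, e ≤ y ^ 2 ∧
      0 ≤ x - ∑ e ∈ G, (1 / e : ℚ) ∧ x - ∑ e ∈ G, (1 / e : ℚ) < 1 / y := by
  intro κ
  induction κ with
  | zero =>
    intro c y hc hy hcy hy1 x hx0 hx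
    refine ⟨∅, by simp, by simp, by simpa using hcy, by simpa using hx0, ?_⟩
    simp only [Finset.sum_empty, sub_zero]
    have h1 : y ≤ c := by simpa using hy
    have h2 : (1 : ℚ) / c ≤ 1 / y := by
      apply one_div_le_one_div_of_le
      · exact_mod_cast hy1
      · exact_mod_cast h1
    linarith
  | succ κ ih =>
    intro c y hc hy hcy hy1 x hx0 hx
    have hyq : (0 : ℚ) < y := by exact_mod_cast hy1
    have hcq : (0 : ℚ) < c := by
      have : 0 < c := by omega
      exact_mod_cast this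
    by_cases hxy : x < 1 / y
    · exact ⟨∅, by simp, by simp, by simpa using hcy, by simpa using hx0, by simpa using hxy⟩
    · have hxy' : 1 / (y : ℚ) ≤ x := not_lt.mp hxy
      have hxpos : 0 < x := lt_of_lt_of_le (by positivity) hxy'
      obtain ⟨e, he⟩ : ∃ e : ℕ, e = ⌈1 / x⌉₊ := ⟨_, rfl⟩
      have hce : c < e := by
        rw [he, Nat.lt_ceil, lt_div_iff₀ hxpos]
        rw [lt_div_iff₀ hcq] at hx
        linarith
      have hey : e ≤ y := by
        rw [he, Nat.ceil_le, div_le_iff₀ hxpos]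
        rw [div_le_iff₀ hyq] at hxy'
        linarith
      have h1e : 1 / x ≤ e := by rw [he]; exact Nat.le_ceil _
      have h2e : (e : ℚ) < 1 / x + 1 := by
        rw [he]; exact Nat.ceil_lt_add_one (by positivity)
      obtain ⟨f, rfl⟩ : ∃ f, e = f + 1 := ⟨e - 1, by omega⟩
      have hcf : c ≤ f := by omega
      have hfq : (0 : ℚ) < f := by
        have : 0 < f := by omega
        exact_mod_cast this
      push_cast at h1e h2e
      have hx1 : 1 / ((f : ℚ) + 1) ≤ x := by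
        rw [div_le_iff₀ (by positivity)]
        rw [div_le_iff₀ hxpos] at h1e
        linarith
      have hx2 : x < 1 / (f : ℚ) := by
        rw [lt_div_iff₀ hfq]
        have : (f : ℚ) < 1 / x := by linarith
        rw [lt_div_iff₀ hxpos] at this
        linarith
      -- recursive call
      have hc' : 2 ≤ (f + 1) * f := by nlinarith
      have hcc : c ^ 2 ≤ (f + 1) * f := by nlinarith
      have hy' : y ≤ ((f + 1) * f) ^ 2 ^ κ := by
        calc y ≤ c ^ 2 ^ (κ + 1) := hy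
          _ = (c ^ 2) ^ 2 ^ κ := by rw [← pow_mul, pow_succ, mul_comm]
          _ ≤ ((f + 1) * f) ^ 2 ^ κ := Nat.pow_le_pow_left hcc _
      have hcy' : (f + 1) * f ≤ y ^ 2 := by nlinarith
      have hx' : x - 1 / ((f : ℚ) + 1) < 1 / (((f + 1) * f : ℕ) : ℚ) := by
        have : (1 : ℚ) / (((f + 1) * f : ℕ) : ℚ) = 1 / (f : ℚ) - 1 / ((f : ℚ) + 1) := by
          push_cast
          field_simp
          ring
        rw [this]
        linarith
      obtain ⟨G', hG1, hG2, hG3, hG4, hG5⟩ := ih ((f + 1) * f) y hc' hy' hcy' hy1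
        (x - 1 / ((f : ℚ) + 1)) (by linarith) hx'
      have hnot : f + 1 ∉ G' := by
        intro hmem
        have := (hG1 _ hmem).1
        nlinarith
      refine ⟨insert (f + 1) G', ?_, ?_, ?_, ?_, ?_⟩
      · intro e' he'
        rcases Finset.mem_insert.mp he' with rfl | he'
        · exact ⟨hce, hey⟩
        · have := hG1 e' he'
          refine ⟨?_, this.2⟩
          have h3 : f + 1 ≤ (f + 1) * f := by nlinarith
          omega
      · rw [Finset.card_insert_of_notMem hnot]; omega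
      · rw [Finset.prod_insert hnot]
        calc c * ((f + 1) * ∏ e ∈ G', e) ≤ f * ((f + 1) * ∏ e ∈ G', e) := Nat.mul_le_mul_right _ hcf
          _ = (f + 1) * f * ∏ e ∈ G', e := by ring
          _ ≤ y ^ 2 := hG3
      · rw [Finset.sum_insert hnot]
        push_cast
        linarith
      · rw [Finset.sum_insert hnot]
        push_cast
        linarith

theorem greedy (κ y : ℕ) (hy2 : 2 ≤ y) (hy : y ≤ 2 ^ 2 ^ κ) (x : ℚ) (hx0 : 0 ≤ x) (hx1 : x < 1) :
    ∃ G : Finset ℕ, (∀ e ∈ G, 2 ≤ e ∧ e ≤ y) ∧ G.card ≤ κ + 1 ∧ ∏ e ∈ G, e ≤ y ^ 2 ∧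
      0 ≤ x - ∑ e ∈ G, (1 / e : ℚ) ∧ x - ∑ e ∈ G, (1 / e : ℚ) < 1 / y := by
  have h2y : 2 ≤ y ^ 2 := by nlinarith
  by_cases hx : x < 1 / 2
  · obtain ⟨G, h1, h2, h3, h4, h5⟩ := greedy_aux κ 2 y le_rfl hy h2y (by omega) x hx0
      (by push_cast; exact hx)
    refine ⟨G, fun e he => ⟨by have := (h1 e he).1; omega, (h1 e he).2⟩, by omega, ?_, h4, h5⟩
    calc ∏ e ∈ G, e ≤ 2 * ∏ e ∈ G, e := by omega
      _ ≤ y ^ 2 := h3
  · have hx' : (1 : ℚ) / 2 ≤ x := not_lt.mp hx
    obtain ⟨G, h1, h2, h3, h4, h5⟩ := greedy_aux κ 2 y le_rfl hy h2y (by omega) (x - 1 / 2)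
      (by linarith) (by push_cast; linarith)
    have hnot : 2 ∉ G := by
      intro hmem
      have := (h1 _ hmem).1
      omega
    refine ⟨insert 2 G, ?_, ?_, ?_, ?_, ?_⟩
    · intro e he
      rcases Finset.mem_insert.mp he with rfl | he
      · exact ⟨le_rfl, hy2⟩
      · exact ⟨by have := (h1 e he).1; omega, (h1 e he).2⟩
    · rw [Finset.card_insert_of_notMem hnot]; omega
    · rw [Finset.prod_insert hnot]; exact h3
    · rw [Finset.sum_insert hnot]
      push_cast
      linarith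
    · rw [Finset.sum_insert hnot]
      push_cast
      linarith

end Vale.Agent.Lib.P012b
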